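import Mathlib

/-!
# P013: Jacobsthal's function on integers whose prime divisors have reciprocal sum below one

`k + 1 ≤ j(n) ≤ k / (1 - σ) + 1` for `k = ω(n)`, `σ = ∑_{p ∣ n} 1/p < 1`, and `j(a b) ≤ a j(b)`
for coprime `a, b`.
-/

open Finset

namespace Vale.Agent.Results.P013.SparsePrimes

/-- every block of `m` consecutive integers contains an integer coprime to `n` -/
def Hits (n m : ℕ) : Prop := ∀ a : ℤ, ∃ i : ℕ, i < m ∧ IsCoprime (a + (i : ℤ)) (n : ℤ)

/-- Jacobsthal's function: the least positive `m` such that every block of `m` consecutive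
integers contains an integer coprime to `n` -/
noncomputable def jac (n : ℕ) : ℕ := sInf {m : ℕ | 0 < m ∧ Hits n m}

/-- the sum of the reciprocals of the distinct prime divisors of `n` -/
noncomputable def sig (n : ℕ) : ℝ := ∑ p ∈ n.primeFactors, (1 / (p : ℝ))

theorem Hits.mono {n m m' : ℕ} (h : Hits n m) (hm : m ≤ m') : Hits n m' := by
  intro a
  obtain ⟨i, hi, hc⟩ := h a
  exact ⟨i, lt_of_lt_of_le hi hm, hc⟩

theorem exists_prime_of_not_coprime {n : ℕ} (x : ℤ) (h : ¬ IsCoprime x (n : ℤ)) :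
    ∃ p : ℕ, p.Prime ∧ p ∣ n ∧ (p : ℤ) ∣ x := by
  rw [Int.isCoprime_iff_gcd_eq_one] at h
  have h2 : ¬ Nat.Coprime x.natAbs n := by
    intro hc
    apply h
    simpa [Int.gcd] using hc
  obtain ⟨p, hp, h1, h3⟩ := Nat.Prime.not_coprime_iff_dvd.1 h2
  exact ⟨p, hp, h3, Int.natCast_dvd.2 h1⟩

theorem card_class_le (m p : ℕ) (a : ℤ) :
    ((range m).filter (fun i : ℕ => (p : ℤ) ∣ a + (i : ℤ))).card ≤ m / p + 1 := by
  have : ((range m).filter (fun i : ℕ => (p : ℤ) ∣ a + (i : ℤ))).card ≤ (range (m / p + 1)).card := by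
    apply Finset.card_le_card_of_injOn (fun i => i / p)
    · intro i hi
      simp only [coe_filter, mem_range, Set.mem_ofPred_eq] at hi
      simp only [coe_range, Set.mem_Iio]
      have : i / p ≤ m / p := Nat.div_le_div_right hi.1.le
      omega
    · intro i hi j hj hij
      simp only [coe_filter, mem_range, Set.mem_ofPred_eq] at hi hj
      simp only at hij
      have hd : (p : ℤ) ∣ (i : ℤ) - (j : ℤ) := by
        have := dvd_sub hi.2 hj.2
        have e : a + (i : ℤ) - (a + (j : ℤ)) = (i : ℤ) - (j : ℤ) := by ring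
        rwa [e] at this
      have hmod : i % p = j % p := by
        have : (i : ℤ) ≡ (j : ℤ) [ZMOD (p : ℤ)] := (Int.modEq_iff_dvd.2 (by
          have := (dvd_neg.2 hd)
          have e : -((i : ℤ) - (j : ℤ)) = (j : ℤ) - (i : ℤ) := by ring
          rwa [e] at this))
        exact (Int.natCast_modEq_iff.1 this)
      calc i = p * (i / p) + i % p := (Nat.div_add_mod i p).symm
        _ = p * (j / p) + j % p := by rw [hij, hmod]
        _ = j := Nat.div_add_mod j p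
  simpa using this

theorem hits_of_lt {n m : ℕ} (hn : 1 ≤ n)
    (hm : (n.primeFactors.card : ℝ) < (m : ℝ) * (1 - sig n)) : Hits n m := by
  intro a
  by_contra hcon
  have hall : ∀ i : ℕ, i < m → ∃ p ∈ n.primeFactors, (p : ℤ) ∣ a + (i : ℤ) := by
    intro i hi
    have : ¬ IsCoprime (a + (i : ℤ)) (n : ℤ) := fun hc => hcon ⟨i, hi, hc⟩
    obtain ⟨p, hp, hpn, hpx⟩ := exists_prime_of_not_coprime _ this
    exact ⟨p, Nat.mem_primeFactors.2 ⟨hp, hpn, by omega⟩, hpx⟩
  have hsub : range m ⊆ n.primeFactors.biUnion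
      (fun p => (range m).filter (fun i : ℕ => (p : ℤ) ∣ a + (i : ℤ))) := by
    intro i hi
    obtain ⟨p, hp, hpx⟩ := hall i (mem_range.1 hi)
    exact mem_biUnion.2 ⟨p, hp, mem_filter.2 ⟨hi, hpx⟩⟩
  have hcard : m ≤ ∑ p ∈ n.primeFactors, (m / p + 1) := by
    calc m = (range m).card := (card_range m).symm
      _ ≤ _ := card_le_card hsub
      _ ≤ ∑ p ∈ n.primeFactors,
            ((range m).filter (fun i : ℕ => (p : ℤ) ∣ a + (i : ℤ))).card := card_biUnion_le
      _ ≤ ∑ p ∈ n.primeFactors, (m / p + 1) := by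
          apply sum_le_sum
          intro p _
          exact card_class_le m p a
  have hreal : (m : ℝ) ≤ (m : ℝ) * sig n + n.primeFactors.card := by
    calc (m : ℝ) ≤ ((∑ p ∈ n.primeFactors, (m / p + 1) : ℕ) : ℝ) := by exact_mod_cast hcard
      _ = ∑ p ∈ n.primeFactors, (((m / p : ℕ) : ℝ) + 1) := by push_cast; rfl
      _ ≤ ∑ p ∈ n.primeFactors, ((m : ℝ) * (1 / (p : ℝ)) + 1) := by
          apply sum_le_sum
          intro p _
          have := @Nat.cast_div_le ℝ _ _ _ m p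
          have e : (m : ℝ) * (1 / (p : ℝ)) = (m : ℝ) / p := by ring
          rw [e]
          linarith
      _ = (m : ℝ) * sig n + n.primeFactors.card := by
          rw [sum_add_distrib, ← mul_sum]
          simp [sig]
  nlinarith

theorem hits_self {n : ℕ} (hn : 1 ≤ n) : Hits n n := by
  intro a
  refine ⟨((1 - a) % (n : ℤ)).toNat, ?_, ?_⟩
  · have h1 : (1 - a) % (n : ℤ) < n := Int.emod_lt_of_pos _ (by exact_mod_cast hn)
    have h0 : 0 ≤ (1 - a) % (n : ℤ) := Int.emod_nonneg _ (by positivity)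
    omega
  · have h0 : 0 ≤ (1 - a) % (n : ℤ) := Int.emod_nonneg _ (by positivity)
    rw [Int.toNat_of_nonneg h0]
    have e : a + (1 - a) % (n : ℤ) = 1 + (n : ℤ) * (-((1 - a) / (n : ℤ))) := by
      have := Int.emod_add_mul_ediv (1 - a) (n : ℤ)
      linarith
    rw [e]
    exact (IsCoprime.add_mul_left_left_iff).2 isCoprime_one_left

theorem jac_mem {n : ℕ} (hn : 1 ≤ n) : 0 < jac n ∧ Hits n (jac n) :=
  Nat.sInf_mem (s := {m : ℕ | 0 < m ∧ Hits n m}) ⟨n, hn, hits_self hn⟩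

theorem jac_le {n m : ℕ} (hm : 0 < m) (h : Hits n m) : jac n ≤ m :=
  Nat.sInf_le (s := {m : ℕ | 0 < m ∧ Hits n m}) ⟨hm, h⟩

theorem hits_mul {a b t : ℕ} (ha : 1 ≤ a) (hab : Nat.Coprime a b) (h : Hits b t) :
    Hits (a * b) (a * t) := by
  intro x
  obtain ⟨i0, hi0, hc0⟩ : ∃ i0 : ℕ, i0 < a ∧ ∃ q : ℤ, x + (i0 : ℤ) = 1 + (a : ℤ) * q := by
    have h0 : 0 ≤ (1 - x) % (a : ℤ) := Int.emod_nonneg _ (by positivity)
    refine ⟨((1 - x) % (a : ℤ)).toNat, ?_, -((1 - x) / (a : ℤ)), ?_⟩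
    · have h1 : (1 - x) % (a : ℤ) < a := Int.emod_lt_of_pos _ (by exact_mod_cast ha)
      omega
    · rw [Int.toNat_of_nonneg h0]
      have := Int.emod_add_mul_ediv (1 - x) (a : ℤ)
      linarith
  obtain ⟨q, hq⟩ := hc0
  have hcop : IsCoprime (a : ℤ) (b : ℤ) := Nat.isCoprime_iff_coprime.2 hab
  obtain ⟨u, v, huv⟩ := hcop
  obtain ⟨s, hs, hcs⟩ := h (u * (x + (i0 : ℤ)))
  refine ⟨i0 + a * s, ?_, ?_⟩
  · calc i0 + a * s < a + a * s := by omega
      _ = a * (s + 1) := by ring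
      _ ≤ a * t := Nat.mul_le_mul_left a hs
  · push_cast
    apply IsCoprime.mul_right
    · have e : x + ((i0 : ℤ) + (a : ℤ) * (s : ℤ)) = 1 + (a : ℤ) * (q + s) := by
        rw [← add_assoc, hq]; ring
      rw [e]
      exact (IsCoprime.add_mul_left_left_iff).2 isCoprime_one_left
    · have e : u * (x + ((i0 : ℤ) + (a : ℤ) * (s : ℤ)))
          = (u * (x + (i0 : ℤ)) + (s : ℤ)) + (b : ℤ) * (-(v * s)) := by
        have : u * (a : ℤ) = 1 - v * b := by linarith
        calc u * (x + ((i0 : ℤ) + (a : ℤ) * (s : ℤ)))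
            = u * (x + (i0 : ℤ)) + (u * (a : ℤ)) * s := by ring
          _ = _ := by rw [this]; ring
      have h2 : IsCoprime (u * (x + ((i0 : ℤ) + (a : ℤ) * (s : ℤ)))) (b : ℤ) := by
        rw [e]
        exact (IsCoprime.add_mul_left_left_iff).2 hcs
      exact h2.of_mul_left_right

theorem jac_mul_le {a b : ℕ} (ha : 1 ≤ a) (hb : 1 ≤ b) (hab : Nat.Coprime a b) :
    jac (a * b) ≤ a * jac b := by
  obtain ⟨h0, h1⟩ := jac_mem hb
  exact jac_le (Nat.mul_pos ha h0) (hits_mul ha hab h1)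

theorem not_hits_card (n : ℕ) : ¬ Hits n n.primeFactors.card := by
  intro h
  let e := n.primeFactors.equivFin
  let idx : ℕ → ℕ := fun p => if hp : p ∈ n.primeFactors then (e ⟨p, hp⟩ : ℕ) else 0
  obtain ⟨k0, hk0⟩ := Nat.chineseRemainderOfFinset (fun p => (p - 1) * idx p) (fun p => p)
    n.primeFactors (fun p hp => (Nat.prime_of_mem_primeFactors hp).ne_zero)
    (fun p hp q hq hpq => (Nat.coprime_primes (Nat.prime_of_mem_primeFactors hp)
      (Nat.prime_of_mem_primeFactors hq)).2 hpq)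
  obtain ⟨i, hi, hc⟩ := h (k0 : ℤ)
  let P := e.symm ⟨i, hi⟩
  have hP : (P : ℕ) ∈ n.primeFactors := P.2
  have hidx : idx (P : ℕ) = i := by
    simp only [idx, hP, dif_pos]
    simp [P]
  have hpr := Nat.prime_of_mem_primeFactors hP
  have hmod := hk0 (P : ℕ) hP
  simp only [hidx] at hmod
  have hdvd : (P : ℕ) ∣ k0 + i := by
    have h1 : k0 + i ≡ ((P : ℕ) - 1) * i + i [MOD (P : ℕ)] := Nat.ModEq.add_right i hmod
    have h2 : ((P : ℕ) - 1) * i + i = (P : ℕ) * i := by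
      have : 1 ≤ (P : ℕ) := hpr.one_le
      obtain ⟨c, hc⟩ := Nat.exists_eq_add_of_le this
      rw [hc]; simp; ring
    rw [h2] at h1
    exact (Nat.modEq_zero_iff_dvd.1 (h1.trans (Nat.modEq_zero_iff_dvd.2 (dvd_mul_right _ _))))
  have hdn : (P : ℕ) ∣ n := Nat.dvd_of_mem_primeFactors hP
  have hunit : IsUnit ((P : ℕ) : ℤ) := by
    apply hc.isUnit_of_dvd'
    · exact_mod_cast hdvd
    · exact_mod_cast hdn
  have : (P : ℕ) = 1 := by
    have := Int.isUnit_iff_natAbs_eq.1 hunit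
    simpa using this
  exact hpr.one_lt.ne' this

theorem card_lt_jac {n : ℕ} (hn : 1 ≤ n) : n.primeFactors.card + 1 ≤ jac n := by
  by_contra hcon
  exact not_hits_card n ((jac_mem hn).2.mono (by omega))

theorem jac_le_real {n : ℕ} (hn : 1 ≤ n) (hs : sig n < 1) :
    (jac n : ℝ) ≤ (n.primeFactors.card : ℝ) / (1 - sig n) + 1 := by
  have hpos : 0 < 1 - sig n := by linarith
  set k : ℝ := (n.primeFactors.card : ℝ) with hk
  have hk0 : 0 ≤ k / (1 - sig n) := by positivity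
  have hm : Hits n (⌊k / (1 - sig n)⌋₊ + 1) := by
    apply hits_of_lt hn
    have := Nat.lt_floor_add_one (k / (1 - sig n))
    rw [div_lt_iff₀ hpos] at this
    push_cast
    exact this
  have h1 := jac_le (Nat.succ_pos _) hm
  have h2 : ((⌊k / (1 - sig n)⌋₊ : ℕ) : ℝ) ≤ k / (1 - sig n) := Nat.floor_le hk0
  calc (jac n : ℝ) ≤ ((⌊k / (1 - sig n)⌋₊ + 1 : ℕ) : ℝ) := by exact_mod_cast h1
    _ ≤ k / (1 - sig n) + 1 := by push_cast; linarith

/-- **Result.**  With `j = jac` (Jacobsthal's function), `ω(n) = n.primeFactors.card` and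
`σ(n) = sig n = ∑_{p ∣ n} 1/p`:
1. `ω(n) + 1 ≤ j(n)` for all `n ≥ 1`, and `j(n) ≤ ω(n) / (1 - σ(n)) + 1` whenever `σ(n) < 1`;
2. `j(n) ≤ ω(n)^2 + 1` whenever `ω(n) ≥ 1` and `σ(n) ≤ 1 - 1/ω(n)`;
3. `j(a b) ≤ a j(b)` for coprime `a, b ≥ 1`;
4. `j(a b) ≤ a (ω(b) / (1 - σ(b)) + 1)` for coprime `a, b ≥ 1` with `σ(b) < 1`. -/
theorem result :
    (∀ n : ℕ, 1 ≤ n → n.primeFactors.card + 1 ≤ jac n) ∧
    (∀ n : ℕ, 1 ≤ n → sig n < 1 →
      (jac n : ℝ) ≤ (n.primeFactors.card : ℝ) / (1 - sig n) + 1) ∧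
    (∀ n : ℕ, 1 ≤ n → 1 ≤ n.primeFactors.card →
      sig n ≤ 1 - 1 / (n.primeFactors.card : ℝ) → jac n ≤ n.primeFactors.card ^ 2 + 1) ∧
    (∀ a b : ℕ, 1 ≤ a → 1 ≤ b → Nat.Coprime a b → jac (a * b) ≤ a * jac b) ∧
    (∀ a b : ℕ, 1 ≤ a → 1 ≤ b → Nat.Coprime a b → sig b < 1 →
      (jac (a * b) : ℝ) ≤ (a : ℝ) * ((b.primeFactors.card : ℝ) / (1 - sig b) + 1)) := by
  refine ⟨fun n hn => card_lt_jac hn, fun n hn hs => jac_le_real hn hs, ?_,
    fun a b ha hb hab => jac_mul_le ha hb hab, ?_⟩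
  · intro n hn hk hs
    have hk' : (1 : ℝ) ≤ (n.primeFactors.card : ℝ) := by exact_mod_cast hk
    have hkpos : (0 : ℝ) < (n.primeFactors.card : ℝ) := by linarith
    have hinv : 0 < 1 / (n.primeFactors.card : ℝ) := by positivity
    have hlt : sig n < 1 := by linarith
    have h1 := jac_le_real hn hlt
    have h2 : (n.primeFactors.card : ℝ) / (1 - sig n) ≤ (n.primeFactors.card : ℝ) ^ 2 := by
      rw [div_le_iff₀ (by linarith)]
      have h3 : 1 / (n.primeFactors.card : ℝ) ≤ 1 - sig n := by linarith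
      calc (n.primeFactors.card : ℝ)
          = (n.primeFactors.card : ℝ) ^ 2 * (1 / (n.primeFactors.card : ℝ)) := by
            field_simp
        _ ≤ (n.primeFactors.card : ℝ) ^ 2 * (1 - sig n) := by
            apply mul_le_mul_of_nonneg_left h3 (by positivity)
    have h4 : (jac n : ℝ) ≤ ((n.primeFactors.card ^ 2 + 1 : ℕ) : ℝ) := by
      push_cast; linarith
    exact_mod_cast h4
  · intro a b ha hb hab hs
    have h1 : (jac (a * b) : ℝ) ≤ (a : ℝ) * (jac b : ℝ) := by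
      exact_mod_cast jac_mul_le ha hb hab
    have h2 := jac_le_real hb hs
    calc (jac (a * b) : ℝ) ≤ (a : ℝ) * (jac b : ℝ) := h1
      _ ≤ _ := by apply mul_le_mul_of_nonneg_left h2 (by positivity)

end Vale.Agent.Results.P013.SparsePrimes
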